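import Vale.Agent.P050.V3.Spec

/-!
The entropy side for arbitrary deleted rungs, from its lemmas.
-/

set_option linter.unusedSectionVars false

namespace Vale.Agent.P050.V3.H465

open Finset Vale.Agent.P050.H148 Vale.Agent.P050.Cart Vale.Agent.P050.M18 Vale.Agent.P050.H546
open Vale.Agent.P050.H222

theorem zl_nn {U : Type} [Fintype U] [DecidableEq U] {A : U → U → ℝ} (hA : ∀ x y, 0 ≤ A x y)
    (P : ℕ → Bool) (n : ℕ) : ∀ x y, 0 ≤ zl A P n x y := by
  induction n with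
  | zero =>
    intro x y
    show (0 : ℝ) ≤ if x = y then 1 else 0
    split_ifs <;> norm_num
  | succ n ih =>
    intro x y
    show 0 ≤ ∑ c, zl A P n x c *
      (A c.1 y.1 * A c.2 y.2 * (if P (n + 1) then A y.1 y.2 else 1))
    refine Finset.sum_nonneg fun c _ => mul_nonneg (ih x c)
      (mul_nonneg (mul_nonneg (hA _ _) (hA _ _)) ?_)
    split_ifs
    · exact hA _ _
    · exact zero_le_one

theorem zl_succ {U : Type} [Fintype U] [DecidableEq U] (A : U → U → ℝ)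
    (P : ℕ → Bool) (n : ℕ) (h : P (n + 1) = true) (x y : U × U) :
    zl A P (n + 1) x y = ∑ c, zl A P n x c * KL A 1 c y := by
  show ∑ c, zl A P n x c * (A c.1 y.1 * A c.2 y.2 * (if P (n + 1) then A y.1 y.2 else 1)) = _
  refine Finset.sum_congr rfl fun c _ => ?_
  unfold KL
  rw [zp_one, zp_one, if_pos h]

/-- [SUM3] -/
theorem sum3 (h1 : LadsStmt) (h2 : Base3Stmt) (h3 : Close3Stmt) (h4 : GInfStmt) : Ent3Stmt := by
  intro U _ _ A Q hE hA hA1 n t P1 P2 hn ht p1 p2 q1 q2 s1 s2 hs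
  obtain ⟨F1, l1⟩ := h1 U A Q hE hA hA1 P1 n p1 q1
  obtain ⟨F2, l2⟩ := h1 U A Q hE hA hA1 P2 (n + (t + 2)) p2 q2
  obtain ⟨Ω, _, P, R, a, b, d, e, hG⟩ :=
    h2 U Q hE n (t + 2) F1 F2 (by omega) l1.lab l2.lab l1.low l2.low
  obtain ⟨h5, h6⟩ := h3 U Ω A Q _ _ F1 F2 _ _ P R a b d e n (t + 2) (by omega) hE hA hA1
    (zl_nn hA P1 n) (zl_nn hA P2 (n + (t + 2))) l1 l2 hG
  have hz : nZ A (zl A P1 n) (zl A P2 (n + (t + 2))) (t + 2) = nD A P1 P2 n t := by
    unfold nZ nD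
    refine Finset.sum_congr rfl fun R _ => Finset.sum_congr rfl fun a _ =>
      Finset.sum_congr rfl fun b _ => ?_
    rw [← zl_succ A P1 n s1, ← zl_succ A P2 (n + (t + 2)) s2]
    rfl
  rw [hz] at h5 h6
  refine ⟨h5, le_trans ?_ h6⟩
  obtain ⟨i1, i2, i3, i4⟩ := h4 U Q hE
  have e2 := i2 (t + 2)
  have e3 := i4 (n + (t + 2))
  have e4 := hB_ge hE (n + 1) (by omega)
  have e5 : h2Q Q ≤ hh Q (t + 1) := by
    rw [← i1]
    exact monotone_nat_of_le_succ i3 (by omega)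
  have e6 := r_nonneg hE
  have hs' : (5 : ℝ) ≤ (ns P1 n : ℝ) + ns P2 (n + (t + 2)) := by exact_mod_cast hs
  have e7 : 0 ≤ ((ns P1 n : ℝ) + ns P2 (n + (t + 2)) - 5) * (2 * aQ Q - h2Q Q) :=
    mul_nonneg (by linarith) e6
  rw [show t + 2 - 1 = t + 1 from rfl, show n + t + 2 = n + (t + 2) from rfl]
  push_cast
  nlinarith [e2, e3, e4, e5, e6, e7]

end Vale.Agent.P050.V3.H465
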